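import Vale.Agent.P204.TameMT

namespace Vale.Agent.Results.P204.A_MappingTorus

open Vale.Agent.P204

/-- Donaldson's tamed-to-compatible question on all mapping tori `X_A = ℝ⁴ / Γ_A` of automorphisms
`A ∈ SL(3, ℤ)` of the three-torus (`A = 1` is the four-torus, unipotent `A` gives the
Kodaira-Thurston manifold), for almost complex structures that are invariant under translations
along the `T³` fibres: if such a `J` is tamed by a symplectic form `w` on `X_A` (not assumed
invariant along the fibres), then some symplectic form on `X_A` is compatible with `J`. -/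
theorem result (A : Matrix.SpecialLinearGroup (Fin 3) ℤ)
    (J : E4 → E4 →L[ℝ] E4) (hJ : IsAlmostComplexMT A.1 J)
    (hinv : ∀ x y : E4, x 0 = y 0 → J x = J y)
    (w : E4 → E4 [⋀^Fin 2]→L[ℝ] ℝ) (hw : IsClosedFormMT A.1 w) (htame : Tames w J) :
    ∃ w' : E4 → E4 [⋀^Fin 2]→L[ℝ] ℝ, IsClosedFormMT A.1 w' ∧ Compatible w' J := by
  have hAB : A.1 * (A⁻¹).1 = 1 := by
    rw [← Matrix.SpecialLinearGroup.coe_mul, mul_inv_cancel, Matrix.SpecialLinearGroup.coe_one]
  have hBA : (A⁻¹).1 * A.1 = 1 := by
    rw [← Matrix.SpecialLinearGroup.coe_mul, inv_mul_cancel, Matrix.SpecialLinearGroup.coe_one]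
  obtain ⟨c, hc⟩ := exists_tameMT hAB hBA hw hJ hinv htame
  have hβ := beta_anti w
  refine ⟨newForm c (beta w) J, ⟨contDiff_newForm c _ hJ.smooth, ?_, ?_,
    closed_newForm c hβ hJ.smooth hinv⟩, ?_, ?_⟩
  · intro x k
    unfold newForm
    rw [hJ.periodic x k]
  · intro x u v
    rw [newForm_apply c hβ, newForm_apply c hβ]
    exact Wval_nat (hJ.equivariant x) (beta_hatA hAB hBA hw) c u v
  · intro x v hv
    rw [newForm_apply c hβ]
    exact hc x v hv
  · intro x u v
    rw [newForm_apply c hβ, newForm_apply c hβ]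
    exact Wval_inv (fun v => hJ.sq x v) hβ c u v

end Vale.Agent.Results.P204.A_MappingTorus
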