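import Vale.Agent.P204.Construct

namespace Vale.Agent.Results.P204.TorusCohomOne

open Vale.Agent.P204

/-- Donaldson's tamed-to-compatible question on the four-torus `T⁴ = ℝ⁴ / ℤ⁴`, for almost complex
structures invariant under the three-torus of translations in the last three coordinates:
if such a `J` is tamed by a symplectic form `w` (any smooth closed form on `T⁴`, not assumed
invariant), then some symplectic form on `T⁴` is compatible with `J`. -/
theorem result (J : E4 → E4 →L[ℝ] E4) (hJ : IsAlmostComplex J)
    (hinv : ∀ x y : E4, x 0 = y 0 → J x = J y)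
    (w : E4 → E4 [⋀^Fin 2]→L[ℝ] ℝ) (hw : IsClosedForm w) (htame : Tames w J) :
    ∃ w' : E4 → E4 [⋀^Fin 2]→L[ℝ] ℝ, IsClosedForm w' ∧ Compatible w' J := by
  obtain ⟨c, hc⟩ := exists_tame hw hJ hinv htame
  have hβ := beta_anti w
  refine ⟨newForm c (beta w) J, ⟨contDiff_newForm c _ hJ.smooth, ?_,
    closed_newForm c hβ hJ.smooth hinv⟩, ?_, ?_⟩
  · intro x k
    unfold newForm
    rw [hJ.periodic x k]
  · intro x v hv
    rw [newForm_apply c hβ]
    exact hc x v hv
  · intro x u v
    rw [newForm_apply c hβ, newForm_apply c hβ]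
    exact Wval_inv (fun v => hJ.sq x v) hβ c u v

end Vale.Agent.Results.P204.TorusCohomOne
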